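import Vale.Agent.P195.IT.Syz

/-!
The triangular argument with Ext lengths against two-term sequences.
-/

set_option linter.unusedSectionVars false
set_option linter.style.haveILetI false

namespace Vale.Agent.P195.IT

open CategoryTheory CategoryTheory.Abelian
open scoped ModuleCat.Algebra

universe u

variable {A : Type u} [Ring A]

/-- Ext against `X` vanishes in the window. -/
def Neg (M : ModuleCat.{u} A) (b L : ℕ) (X : ModuleCat.{u} A) : Prop :=
  ∀ k, b < k → k ≤ L → Subsingleton (Ext M X k)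

/-- A retract of a power of `Z` plus a module invisible in the window. -/
def Good (Z M : ModuleCat.{u} A) (b L : ℕ) (V : ModuleCat.{u} A) : Prop :=
  ∃ (n : ℕ) (X : ModuleCat.{u} A), Neg M b L X ∧ Retr A V ((Fin n → Z) × X)

/-- `W` is in a short exact sequence with the other two terms `V1`, `V0`, as cokernel or middle. -/
def TwoTerm (W V1 V0 : ModuleCat.{u} A) : Prop :=
  (∃ (f : V1 →ₗ[A] V0) (g : V0 →ₗ[A] W),
      Function.Injective f ∧ Function.Surjective g ∧ Function.Exact f g) ∨
    (∃ (f : V1 →ₗ[A] W) (g : W →ₗ[A] V0),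
      Function.Injective f ∧ Function.Surjective g ∧ Function.Exact f g)

variable (R : Type u) [CommRing R] [IsArtinianRing R] [Algebra R A] [Module.Finite R A]

/-- The Ext lengths of `V` on `c, …, c + Q - 1`. -/
noncomputable def evec (M V : ModuleCat.{u} A) (c Q : ℕ) : Fin Q → ℚ :=
  fun q => (elen R M V (c + q) : ℚ)

theorem span_good {Z M : ModuleCat.{u} A} [Module.Finite A M] {b L c Q : ℕ} (hb : b < c)
    (hQ : c + Q ≤ L + 1) {σ : ℕ} (W : Fin σ → ModuleCat.{u} A)
    (hW : ∀ (V : Type u) [AddCommGroup V] [Module A V] [Module.Finite A V], Indec A V →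
      Retr A V Z → ∃ a, Nonempty (V ≃ₗ[A] W a)) :
    ∀ (N : ℕ) (V : ModuleCat.{u} A), Module.Finite A V → (Module.length A V).toNat ≤ N →
      Good Z M b L V → evec R M V c Q ∈ Submodule.span ℚ (Set.range fun a => evec R M (W a) c Q) := by
  haveI : IsArtinianRing A := IsArtinianRing.of_finite R A
  intro N
  induction N with
  | zero =>
    intro V _ hN _
    haveI : Subsingleton V := by
      refine (Module.length_eq_zero_iff (R := A)).1 ?_
      rw [← ENat.natCast_toNat (Module.length_ne_top (R := A) (M := V)), Nat.le_zero.1 hN]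
      rfl
    convert Submodule.zero_mem _
    funext q
    simp [evec, elen_eq_zero R M V _ sub_zero_obj]
  | succ N ih =>
    intro V hV hN hG
    obtain ⟨n, X, hX, hr⟩ := hG
    by_cases hd : ∃ p q : Submodule A V, IsCompl p q ∧ p ≠ ⊥ ∧ q ≠ ⊥
    · obtain ⟨p, q, hc, hp, hq⟩ := hd
      haveI : Module.Finite A p := Module.Finite.of_fg (IsNoetherian.noetherian p)
      haveI : Module.Finite A q := Module.Finite.of_fg (IsNoetherian.noetherian q)
      have h1 := ih (ModuleCat.of A p) (inferInstanceAs (Module.Finite A p)) (by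
        have := length_lt_of_compl hc hq
        show (Module.length A p).toNat ≤ N
        omega) ⟨n, X, hX, (retr_submodule hc).trans hr⟩
      have h2 := ih (ModuleCat.of A q) (inferInstanceAs (Module.Finite A q)) (by
        have := length_lt_of_compl hc.symm hp
        show (Module.length A q).toNat ≤ N
        omega) ⟨n, X, hX, (retr_submodule hc.symm).trans hr⟩
      convert Submodule.add_mem _ h1 h2 using 1
      funext k
      simp [evec, elen_split R M V hc]
    · rcases subsingleton_or_nontrivial V with hs | hnt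
      · convert Submodule.zero_mem _
        funext q
        simp [evec, elen_eq_zero R M V _ sub_zero_obj]
      push Not at hd
      have hI : Indec A V := ⟨hnt, fun p q hpq => or_iff_not_imp_left.2 (hd p q hpq)⟩
      rcases retr_prod_cases hI hr with h | h
      · obtain ⟨a, ⟨e⟩⟩ := hW V hI (retr_pi_cases hI h)
        have he : evec R M V c Q = evec R M (W a) c Q := by
          funext q
          simp [evec, elen_congr R M (Y := V) (Y' := W a) e.toModuleIso]
        rw [he]
        exact Submodule.subset_span ⟨a, rfl⟩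
      · convert Submodule.zero_mem _
        funext q
        have hq := hX (c + q) (by omega) (by omega)
        simp [evec, elen_eq_zero R M V _ (sub_of_retr h hq)]

include R in
/-- Two-term sequences for the syzygies in widely spaced degrees force projectivity. -/
theorem core_at {Z : ModuleCat.{u} A} {σ : ℕ} (W : Fin σ → ModuleCat.{u} A)
    (hW : ∀ (V : Type u) [AddCommGroup V] [Module A V] [Module.Finite A V], Indec A V →
      Retr A V Z → ∃ a, Nonempty (V ≃ₗ[A] W a))
    {M : ModuleCat.{u} A} (hM : Module.Finite A M) {b N : ℕ} (dd : Fin (2 * σ + 1) → ℕ)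
    (hdd : ∀ i j, i < j → dd i + 2 ≤ dd j) (hdb : ∀ i, b < dd i) (hdN : ∀ i, dd i + 2 ≤ N)
    (hE : ∀ k, 1 ≤ k → k ≤ N →
      Subsingleton (Ext M M k) ∧ Subsingleton (Ext M (ModuleCat.of A A) k))
    (hdec : ∀ i, ∃ K P V1 V0 : ModuleCat.{u} A,
      Module.Finite A K ∧ Module.Finite A V1 ∧ Module.Finite A V0 ∧ Module.Finite A P ∧
      Module.Projective A P ∧ IsSyzygy (dd i) M K ∧ Good Z M b N V1 ∧ Good Z M b N V0 ∧
      TwoTerm (ModuleCat.of A (K × P)) V1 V0) :
    Module.Projective A M := by
  classical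
  haveI : IsArtinianRing A := IsArtinianRing.of_finite R A
  have hA := fun k h1 h2 => (hE k h1 h2).2
  by_contra hnp
  have hbN : b + 3 ≤ N := by
    have h1 := hdb ⟨0, by omega⟩
    have h2 := hdN ⟨0, by omega⟩
    omega
  let Q : ℕ := N - b - 1
  let v : Fin σ ⊕ Fin σ → Fin Q → ℚ :=
    Sum.elim (fun a => evec R M (W a) (b + 1) Q) (fun a => evec R M (W a) (b + 2) Q)
  let S := Submodule.span ℚ (Set.range v)
  have hS : ∀ V : ModuleCat.{u} A, Module.Finite A V → Good Z M b N V →
      evec R M V (b + 1) Q ∈ S ∧ evec R M V (b + 2) Q ∈ S := by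
    intro V hV hG
    refine ⟨?_, ?_⟩
    · refine Submodule.span_mono ?_ (span_good R (by omega) (by omega) W hW _ V hV le_rfl hG)
      rintro _ ⟨a, rfl⟩
      exact ⟨Sum.inl a, rfl⟩
    · refine Submodule.span_mono ?_ (span_good R (by omega) (by omega) W hW _ V hV le_rfl hG)
      rintro _ ⟨a, rfl⟩
      exact ⟨Sum.inr a, rfl⟩
  have key : ∀ m : Fin (2 * σ + 1), ∃ w : Fin Q → ℚ, w ∈ S ∧ ∃ τ : Fin Q,
      dd m - (b + 1) ≤ τ ∧ (τ : ℕ) ≤ dd m - (b + 1) + 1 ∧ w τ ≠ 0 ∧ ∀ q, τ < q → w q = 0 := by
    intro m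
    obtain ⟨K, P, V1, V0, hKf, hV1f, hV0f, hPf, hPp, hKM, hG1, hG0, htt⟩ := hdec m
    obtain ⟨d, hd⟩ : ∃ d, d = dd m := ⟨_, rfl⟩
    rw [← hd] at hKM ⊢
    have hb := hdb m
    have hN' := hdN m
    rw [← hd] at hb hN'
    obtain ⟨q0, hq0⟩ : ∃ q0, q0 = d - (b + 1) := ⟨_, rfl⟩
    rw [← hq0]
    have hKv : ∀ k, d < k → k ≤ N → Subsingleton (Ext M K k) := by
      intro k h1 h2
      have h := syz_up hA d hKM (k - d) (by omega) (by omega) (hE _ (by omega) (by omega)).1
      rwa [show k - d + d = k by omega] at h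
    have hKn : ¬ Subsingleton (Ext M K d) := fun h =>
      hnp (proj_of_syz hA (by omega) (by omega) hKM h)
    have hWv : ∀ k, d < k → k ≤ N → Subsingleton (Ext M (ModuleCat.of A (K × P)) k) :=
      fun k h1 h2 => sub_prod (hKv k h1 h2) (ext_proj (hA k (by omega) h2) P)
    -- the syzygy is good as soon as all its top classes come from a good module
    have hgood : ∀ (V : ModuleCat.{u} A) (g : V ⟶ ModuleCat.of A (K × P)), Good Z M b N V →
        (∀ y : Ext M (ModuleCat.of A (K × P)) d,
          ∃ z : Ext M V d, z.comp (Ext.mk₀ g) (add_zero d) = y) →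
        ∃ w : Fin Q → ℚ, w ∈ S ∧ ∃ τ : Fin Q,
          q0 ≤ τ ∧ (τ : ℕ) ≤ q0 + 1 ∧ w τ ≠ 0 ∧ ∀ q, τ < q → w q = 0 := by
      intro V g hG hs
      obtain ⟨e, he⟩ := Nat.exists_eq_add_of_le' (show 1 ≤ d by omega)
      subst he
      let fst : ModuleCat.of A (K × P) ⟶ K := ModuleCat.ofHom (LinearMap.fst A K P)
      let inl : K ⟶ ModuleCat.of A (K × P) := ModuleCat.ofHom (LinearMap.inl A K P)
      have hif : inl ≫ fst = 𝟙 K := ModuleCat.hom_ext (LinearMap.ext fun x => rfl)
      obtain ⟨P', hP'f, hP'p, hr⟩ := retr_of_surj e hKM (g ≫ fst) (fun y => by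
        obtain ⟨z, hz⟩ := hs (y.comp (Ext.mk₀ inl) (add_zero _))
        refine ⟨z, ?_⟩
        rw [← Ext.mk₀_comp_mk₀, ← Ext.comp_assoc_of_third_deg_zero, hz,
          Ext.comp_assoc_of_third_deg_zero, Ext.mk₀_comp_mk₀, hif, Ext.comp_mk₀_id])
      obtain ⟨n, X, hX, hVr⟩ := hG
      have hKG : Good Z M b N K :=
        ⟨n, ModuleCat.of A (X × P'),
          fun k h1 h2 => sub_prod (hX k h1 h2) (ext_proj (hA k (by omega) h2) P'),
          hr.trans (hVr.prod_left.trans Retr.assoc)⟩
      refine ⟨_, (hS K hKf hKG).1, ⟨q0, by omega⟩, le_rfl, Nat.le_succ _, ?_, ?_⟩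
      · show (elen R M K (b + 1 + (q0)) : ℚ) ≠ 0
        rw [show b + 1 + (q0) = e + 1 by omega, Nat.cast_ne_zero]
        exact elen_pos R M K _ hKn
      · intro q hq
        have hq' : q0 < q := hq
        have := q.2
        simp [evec, elen_eq_zero R M K _ (hKv (b + 1 + q) (by omega) (by omega))]
    rcases htt with ⟨f, g, hf, hg, he⟩ | ⟨f, g, hf, hg, he⟩
    · -- `0 → V1 → V0 → W → 0`
      have hT := stepSC_exact hf hg he
      let D : Fin Q → ℚ := evec R M V1 (b + 1) Q - evec R M V0 (b + 1) Q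
      have hsurj : ∀ k, d < k → k ≤ N →
          Function.Surjective (pm R M (ModuleCat.ofHom f : V1 ⟶ V0) k) := fun k h1 h2 x =>
        Ext.covariant_sequence_exact₂ M hT x ((hWv k h1 h2).elim _ _)
      haveI := fun k => ext_finite R k M V1
      by_cases h0 : D ⟨q0 + 1, by omega⟩ = 0
      · refine hgood V0 (ModuleCat.ofHom g) hG0 fun y => ?_
        have he1 : elen R M V1 (d + 1) = elen R M V0 (d + 1) := by
          have h : (elen R M V1 (b + 1 + (q0 + 1)) : ℚ) -
              elen R M V0 (b + 1 + (q0 + 1)) = 0 := h0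
          rw [show b + 1 + (q0 + 1) = d + 1 by omega, sub_eq_zero] at h
          exact_mod_cast h
        have hinj := (len_surj R _ (hsurj (d + 1) (by omega) (by omega))).1 he1
        refine Ext.covariant_sequence_exact₃ M hT y (n₁ := d + 1) rfl
          (hinj (?_ : _ = pm R M _ _ 0))
        rw [map_zero, pm_apply]
        show (y.comp hT.extClass rfl).comp (Ext.mk₀ _) (add_zero (d + 1)) = 0
        rw [Ext.comp_assoc_of_third_deg_zero, hT.extClass_comp, Ext.comp_zero]
      · refine ⟨D, S.sub_mem (hS V1 hV1f hG1).1 (hS V0 hV0f hG0).1, ⟨q0 + 1, by omega⟩,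
          Nat.le_succ _, le_rfl, h0, fun q hq => ?_⟩
        have hq' : q0 + 1 < q := hq
        have := q.2
        show (elen R M V1 (b + 1 + q) : ℚ) - elen R M V0 (b + 1 + q) = 0
        rw [sub_eq_zero, Nat.cast_inj]
        refine (len_surj R _ (hsurj _ (by omega) (by omega))).2
          ((injective_iff_map_eq_zero _).2 fun x hx => ?_)
        obtain ⟨y, hy⟩ := Ext.covariant_sequence_exact₁ M hT x hx (n₀ := b + q) (by omega)
        rw [← hy, (hWv (b + q) (by omega) (by omega)).elim y 0, Ext.zero_comp]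
    · -- `0 → V1 → W → V0 → 0`
      have hT := stepSC_exact hf hg he
      let D : Fin Q → ℚ := evec R M V0 (b + 1) Q - evec R M V1 (b + 2) Q
      let δ : ∀ k, Ext M V0 k →ₗ[R] Ext M V1 (k + 1) := fun k =>
        hT.extClass.postcompOfLinear R M rfl
      have hsurj : ∀ k, d ≤ k → k < N → Function.Surjective (δ k) := fun k h1 h2 x =>
        Ext.covariant_sequence_exact₁ M hT x ((hWv (k + 1) (by omega) (by omega)).elim _ _)
          (n₀ := k) rfl
      haveI := fun k => ext_finite R k M V0
      by_cases h0 : D ⟨q0, by omega⟩ = 0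
      · refine hgood V1 (ModuleCat.ofHom f) hG1 fun y => ?_
        have he1 : elen R M V0 d = elen R M V1 (d + 1) := by
          have h : (elen R M V0 (b + 1 + (q0)) : ℚ) -
              elen R M V1 (b + 2 + (q0)) = 0 := h0
          rw [show b + 1 + (q0) = d by omega,
            show b + 2 + (q0) = d + 1 by omega, sub_eq_zero] at h
          exact_mod_cast h
        have hinj := (len_surj R _ (hsurj d le_rfl (by omega))).1 he1
        refine Ext.covariant_sequence_exact₂ M hT y (hinj (?_ : _ = δ d 0))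
        rw [map_zero]
        show (y.comp (Ext.mk₀ _) (add_zero d)).comp hT.extClass rfl = 0
        rw [Ext.comp_assoc_of_second_deg_zero, hT.comp_extClass, Ext.comp_zero]
      · refine ⟨D, S.sub_mem (hS V0 hV0f hG0).1 (hS V1 hV1f hG1).2, ⟨q0, by omega⟩,
          le_rfl, Nat.le_succ _, h0, fun q hq => ?_⟩
        have hq' : q0 < q := hq
        have := q.2
        show (elen R M V0 (b + 1 + q) : ℚ) - elen R M V1 (b + 2 + q) = 0
        rw [sub_eq_zero, Nat.cast_inj, show b + 2 + (q : ℕ) = b + 1 + q + 1 by omega]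
        refine (len_surj R _ (hsurj _ (by omega) (by omega))).2
          ((injective_iff_map_eq_zero _).2 fun x hx => ?_)
        obtain ⟨y, hy⟩ := Ext.covariant_sequence_exact₃ M hT x (n₁ := b + 1 + q + 1) rfl hx
        rw [← hy, (hWv (b + 1 + q) (by omega) (by omega)).elim y 0, Ext.zero_comp]
  choose w hw τ hτ1 hτ2 hτ3 hτ4 using key
  have hli : LinearIndependent ℚ w := by
    rw [Fintype.linearIndependent_iff]
    intro g hg i
    induction i using WellFoundedGT.induction with
    | ind i ih =>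
      have h0 : ∑ j, g j * w j (τ i) = 0 := by simpa [Finset.sum_apply] using congrFun hg (τ i)
      rw [Finset.sum_eq_single i (fun j _ hj => by
        rcases lt_or_gt_of_ne hj with hlt | hgt
        · have h1 : (j : ℕ) < i := hlt
          have h2 := hτ2 j
          have h3 := hτ1 i
          have h4 := hdd j i hlt
          have h5 := hdb j
          rw [hτ4 j (τ i) (Fin.lt_def.2 (by omega)), mul_zero]
        · rw [ih j hgt, zero_mul]) (fun h => absurd (Finset.mem_univ i) h)] at h0
      exact (mul_eq_zero.1 h0).resolve_right (hτ3 i)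
  haveI : FiniteDimensional ℚ S := FiniteDimensional.span_of_finite ℚ (Set.finite_range v)
  have hli' : LinearIndependent ℚ fun m => (⟨w m, hw m⟩ : S) :=
    LinearIndependent.of_comp S.subtype hli
  have hcard := hli'.fintype_card_le_finrank
  have hrank : Module.finrank ℚ S ≤ Fintype.card (Fin σ ⊕ Fin σ) :=
    finrank_range_le_card v
  simp only [Fintype.card_fin, Fintype.card_sum] at hcard hrank
  omega


include R in
/-- Two-term sequences for the syzygies force projectivity. -/
theorem core (Z : ModuleCat.{u} A) [Module.Finite A Z] (b t : ℕ) :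
    ∃ N : ℕ, ∀ M : ModuleCat.{u} A, Module.Finite A M →
      (∀ k, 1 ≤ k → k ≤ N →
        Subsingleton (Ext M M k) ∧ Subsingleton (Ext M (ModuleCat.of A A) k)) →
      ∀ C : Chain A, C.M 0 = M →
      (∀ i, 1 ≤ i → i + t ≤ N → ∃ K P V1 V0 : ModuleCat.{u} A,
        Module.Finite A K ∧ Module.Finite A V1 ∧ Module.Finite A V0 ∧ Module.Finite A P ∧
        Module.Projective A P ∧ IsSyzygy t (C.M i) K ∧ Good Z M b N V1 ∧ Good Z M b N V0 ∧
        TwoTerm (ModuleCat.of A (K × P)) V1 V0) →
      Module.Projective A M := by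
  haveI : IsArtinianRing A := IsArtinianRing.of_finite R A
  obtain ⟨σ, W, hWf, hW⟩ := finitely_many_indec _ Z ‹_› le_rfl
  refine ⟨b + t + 4 * σ + 5, fun M hM hE C hC hdec => ?_⟩
  refine core_at R W hW hM (b := b) (N := b + t + 4 * σ + 5) (fun m => b + 1 + 2 * (m : ℕ) + t)
    (fun i j h => by have h' : (i : ℕ) < j := h; omega) (fun i => by omega)
    (fun i => by have := i.2; omega) hE fun m => ?_
  obtain ⟨K, P, V1, V0, hKf, hV1f, hV0f, hPf, hPp, hsyz, hG1, hG0, htt⟩ :=
    hdec (b + 1 + 2 * (m : ℕ)) (by omega) (by have := m.2; omega)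
  have h := chain_syz C (b + 1 + 2 * (m : ℕ)) 0
  rw [zero_add, hC] at h
  exact ⟨K, P, V1, V0, hKf, hV1f, hV0f, hPf, hPp, IsSyzygy.trans _ h hsyz, hG1, hG0, htt⟩

end Vale.Agent.P195.IT
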