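import Mathlib

/-!
Retracts, indecomposable modules of finite length and their local endomorphism rings.
-/

set_option linter.unusedSectionVars false
set_option linter.style.haveILetI false

namespace Vale.Agent.P195.IT

universe u

variable {A : Type u} [Ring A]

/-- `V` is a retract (direct summand up to isomorphism) of `Y`. -/
def Retr (A : Type u) [Ring A] (V Y : Type u) [AddCommGroup V] [Module A V] [AddCommGroup Y]
    [Module A Y] : Prop :=
  ∃ (f : V →ₗ[A] Y) (g : Y →ₗ[A] V), g ∘ₗ f = LinearMap.id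

/-- Nonzero without nontrivial direct decomposition. -/
def Indec (A : Type u) [Ring A] (V : Type u) [AddCommGroup V] [Module A V] : Prop :=
  Nontrivial V ∧ ∀ p q : Submodule A V, IsCompl p q → p = ⊥ ∨ q = ⊥

variable {U V Y Y' : Type u} [AddCommGroup U] [Module A U] [AddCommGroup V] [Module A V]
  [AddCommGroup Y] [Module A Y] [AddCommGroup Y'] [Module A Y']

theorem Retr.refl : Retr A V V := ⟨LinearMap.id, LinearMap.id, rfl⟩

theorem Retr.trans (h : Retr A U V) (h' : Retr A V Y) : Retr A U Y := by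
  obtain ⟨f, g, hfg⟩ := h
  obtain ⟨f', g', hfg'⟩ := h'
  refine ⟨f' ∘ₗ f, g ∘ₗ g', ?_⟩
  calc (g ∘ₗ g') ∘ₗ f' ∘ₗ f = g ∘ₗ (g' ∘ₗ f') ∘ₗ f := rfl
    _ = LinearMap.id := by rw [hfg', LinearMap.id_comp, hfg]

theorem Retr.prod_left (h : Retr A V Y) : Retr A (V × U) (Y × U) := by
  obtain ⟨f, g, hfg⟩ := h
  exact ⟨f.prodMap LinearMap.id, g.prodMap LinearMap.id, LinearMap.ext fun x =>
    Prod.ext (LinearMap.congr_fun hfg x.1) rfl⟩

theorem Retr.assoc : Retr A ((U × V) × Y) (U × (V × Y)) :=
  ⟨(LinearEquiv.prodAssoc A U V Y).toLinearMap, (LinearEquiv.prodAssoc A U V Y).symm.toLinearMap,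
    LinearMap.ext fun _ => rfl⟩

theorem retr_submodule {p q : Submodule A V} (h : IsCompl p q) : Retr A p V :=
  ⟨p.subtype, p.projectionOnto q h,
    LinearMap.ext fun x => Submodule.projectionOnto_apply_left h x⟩

theorem exists_unit_summand {E : Type u} [Ring E] [IsLocalRing E] {ι : Type} (s : Finset ι)
    (a : ι → E) (h : IsUnit (∑ i ∈ s, a i)) : ∃ i ∈ s, IsUnit (a i) := by
  classical
  induction s using Finset.induction with
  | empty => exact absurd h (by simp)
  | insert i s hi ih =>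
    rw [Finset.sum_insert hi] at h
    obtain ⟨u, hu⟩ := h
    have h1 : ↑u⁻¹ * a i + ↑u⁻¹ * (∑ j ∈ s, a j) = 1 := by
      rw [← mul_add, ← hu, Units.inv_mul]
    rcases IsLocalRing.isUnit_or_isUnit_of_add_one h1 with h2 | h2
    · exact ⟨i, Finset.mem_insert_self _ _, (Units.isUnit_units_mul u⁻¹ _).1 h2⟩
    · obtain ⟨j, hj, hj'⟩ := ih ((Units.isUnit_units_mul u⁻¹ _).1 h2)
      exact ⟨j, Finset.mem_insert_of_mem hj, hj'⟩

theorem end_local [IsNoetherian A V] [IsArtinian A V] (hV : Indec A V) :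
    IsLocalRing (Module.End A V) := by
  haveI := hV.1
  refine IsLocalRing.of_isUnit_or_isUnit_one_sub_self fun f => ?_
  obtain ⟨n, hn⟩ := Filter.eventually_atTop.1 (LinearMap.eventually_isCompl_ker_pow_range_pow f)
  have hc := hn (n + 1) (Nat.le_succ n)
  rcases hV.2 _ _ hc with h | h
  · left
    rw [← isUnit_pow_iff (Nat.succ_ne_zero n), Module.End.isUnit_iff]
    refine ⟨LinearMap.ker_eq_bot.1 h, LinearMap.range_eq_top.1 ?_⟩
    have h2 := hc.sup_eq_top
    rwa [h, bot_sup_eq] at h2
  · right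
    exact IsNilpotent.isUnit_one_sub ⟨n + 1, LinearMap.range_eq_bot.1 h⟩

/-- An indecomposable retract of a finite sum is a retract of one summand. -/
theorem retr_of_factor [IsNoetherian A V] [IsArtinian A V] (hV : Indec A V) {ι : Type}
    [Fintype ι] {T : ι → Type u} [∀ i, AddCommGroup (T i)] [∀ i, Module A (T i)]
    (f : ∀ i, V →ₗ[A] T i) (g : ∀ i, T i →ₗ[A] V) (h : ∑ i, g i ∘ₗ f i = LinearMap.id) :
    ∃ i, Retr A V (T i) := by
  haveI := end_local hV
  obtain ⟨i, -, hi⟩ := exists_unit_summand (E := Module.End A V) Finset.univ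
    (fun i => (g i ∘ₗ f i : Module.End A V)) (by rw [h]; exact isUnit_one)
  obtain ⟨u, hu⟩ := hi
  refine ⟨i, f i, (↑u⁻¹ : Module.End A V) ∘ₗ g i, ?_⟩
  show (↑u⁻¹ : Module.End A V) ∘ₗ (g i ∘ₗ f i) = LinearMap.id
  rw [← hu]
  exact u.inv_mul

theorem retr_prod_cases [IsNoetherian A V] [IsArtinian A V] (hV : Indec A V) (h : Retr A V (Y × Y')) :
    Retr A V Y ∨ Retr A V Y' := by
  obtain ⟨f, g, hfg⟩ := h
  haveI := end_local hV
  let a : Module.End A V := (g ∘ₗ LinearMap.inl A Y Y') ∘ₗ (LinearMap.fst A Y Y' ∘ₗ f)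
  let b : Module.End A V := (g ∘ₗ LinearMap.inr A Y Y') ∘ₗ (LinearMap.snd A Y Y' ∘ₗ f)
  have hab : a + b = 1 := by
    refine LinearMap.ext fun x => ?_
    show g ((f x).1, 0) + g (0, (f x).2) = x
    rw [← map_add, Prod.mk_add_mk, add_zero, zero_add]
    exact LinearMap.congr_fun hfg x
  rcases IsLocalRing.isUnit_or_isUnit_of_add_one hab with ⟨u, hu⟩ | ⟨u, hu⟩
  · refine Or.inl ⟨LinearMap.fst A Y Y' ∘ₗ f, (↑u⁻¹ : Module.End A V) ∘ₗ g ∘ₗ LinearMap.inl A Y Y', ?_⟩
    show (↑u⁻¹ : Module.End A V) * a = 1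
    rw [← hu]
    exact u.inv_mul
  · refine Or.inr ⟨LinearMap.snd A Y Y' ∘ₗ f, (↑u⁻¹ : Module.End A V) ∘ₗ g ∘ₗ LinearMap.inr A Y Y', ?_⟩
    show (↑u⁻¹ : Module.End A V) * b = 1
    rw [← hu]
    exact u.inv_mul

theorem retr_pi_cases [IsNoetherian A V] [IsArtinian A V] (hV : Indec A V) {n : ℕ}
    (h : Retr A V (Fin n → Y)) : Retr A V Y := by
  obtain ⟨f, g, hfg⟩ := h
  obtain ⟨_, hi⟩ := retr_of_factor hV (fun i : Fin n => LinearMap.proj i ∘ₗ f)
    (fun i => g ∘ₗ LinearMap.single A (fun _ => Y) i) (by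
      refine LinearMap.ext fun x => ?_
      rw [LinearMap.sum_apply]
      show ∑ i, g (Pi.single i (f x i)) = x
      rw [← map_sum, Finset.univ_sum_single]
      exact LinearMap.congr_fun hfg x)
  exact hi

theorem length_lt_of_compl [IsNoetherian A V] [IsArtinian A V] {p q : Submodule A V}
    (h : IsCompl p q) (hq : q ≠ ⊥) :
    (Module.length A p).toNat < (Module.length A V).toNat := by
  have hp : p ≠ ⊤ := fun e => hq (by simpa [e] using h.inf_eq_bot)
  have h2 := Submodule.length_lt hp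
  rw [← ENat.natCast_toNat (Module.length_ne_top (R := A) (M := p)),
    ← ENat.natCast_toNat (Module.length_ne_top (R := A) (M := V))] at h2
  exact_mod_cast h2

/-- Only finitely many indecomposable retracts, up to isomorphism. -/
theorem finitely_many_indec [IsArtinianRing A] :
    ∀ (N : ℕ) (Z : ModuleCat.{u} A), Module.Finite A Z → (Module.length A Z).toNat ≤ N →
      ∃ (σ : ℕ) (W : Fin σ → ModuleCat.{u} A), (∀ a, Module.Finite A (W a)) ∧
        ∀ (V : Type u) [AddCommGroup V] [Module A V] [Module.Finite A V], Indec A V →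
          Retr A V Z → ∃ a, Nonempty (V ≃ₗ[A] W a) := by
  intro N
  induction N with
  | zero =>
    intro Z _ hN
    refine ⟨0, finZeroElim, finZeroElim, fun V _ _ _ hV hr => ?_⟩
    obtain ⟨f, g, hfg⟩ := hr
    haveI := hV.1
    obtain ⟨x, hx⟩ := exists_ne (0 : V)
    haveI : Subsingleton Z := by
      refine (Module.length_eq_zero_iff (R := A)).1 ?_
      rw [← ENat.natCast_toNat (Module.length_ne_top (R := A) (M := Z)), Nat.le_zero.1 hN]
      rfl
    exfalso
    refine hx ?_
    have h : g (f x) = x := LinearMap.congr_fun hfg x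
    rw [← h, Subsingleton.elim (f x) 0, map_zero]
  | succ N ih =>
    intro Z hZ hN
    by_cases hd : ∃ p q : Submodule A Z, IsCompl p q ∧ p ≠ ⊥ ∧ q ≠ ⊥
    · obtain ⟨p, q, hc, hp, hq⟩ := hd
      have hfp : Module.Finite A p := Module.Finite.of_fg (IsNoetherian.noetherian p)
      have hfq : Module.Finite A q := Module.Finite.of_fg (IsNoetherian.noetherian q)
      obtain ⟨σ, W, hW, hWc⟩ := ih (ModuleCat.of A p) hfp (by
        have := length_lt_of_compl hc hq
        show (Module.length A p).toNat ≤ N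
        omega)
      obtain ⟨τ, W', hW', hWc'⟩ := ih (ModuleCat.of A q) hfq (by
        have := length_lt_of_compl hc.symm hp
        show (Module.length A q).toNat ≤ N
        omega)
      refine ⟨σ + τ, Fin.append W W', Fin.addCases (fun a => by rw [Fin.append_left]; exact hW a)
        (fun a => by rw [Fin.append_right]; exact hW' a), fun V _ _ _ hV hr => ?_⟩
      have hr' : Retr A V (p × q) := by
        let e := p.prodEquivOfIsCompl q hc
        exact hr.trans ⟨e.symm.toLinearMap, e.toLinearMap,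
          LinearMap.ext fun x => e.apply_symm_apply x⟩
      rcases retr_prod_cases hV hr' with h | h
      · obtain ⟨a, e⟩ := hWc V hV h
        exact ⟨Fin.castAdd τ a, by rw [Fin.append_left]; exact e⟩
      · obtain ⟨a, e⟩ := hWc' V hV h
        exact ⟨Fin.natAdd σ a, by rw [Fin.append_right]; exact e⟩
    · push Not at hd
      refine ⟨1, fun _ => Z, fun _ => hZ, fun V _ _ _ hV hr => ⟨0, ?_⟩⟩
      obtain ⟨f, g, hfg⟩ := hr
      have hc : IsCompl (LinearMap.range f) (LinearMap.ker g) := by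
        refine ⟨disjoint_iff.2 (eq_bot_iff.2 ?_), codisjoint_iff.2 (eq_top_iff.2 ?_)⟩
        · rintro x ⟨⟨v, rfl⟩, hx⟩
          have : v = 0 := by
            rw [← show g (f v) = v from LinearMap.congr_fun hfg v]
            exact hx
          simp [this]
        · intro x _
          refine Submodule.mem_sup.2 ⟨f (g x), ⟨_, rfl⟩, x - f (g x), ?_, add_sub_cancel _ _⟩
          rw [LinearMap.mem_ker, map_sub, show g (f (g x)) = g x from LinearMap.congr_fun hfg (g x),
            sub_self]
      have hfi : Function.Injective f := fun x y hxy => by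
        simpa [← LinearMap.comp_apply, hfg] using congrArg g hxy
      have hne : LinearMap.range f ≠ ⊥ := by
        haveI := hV.1
        obtain ⟨x, hx⟩ := exists_ne (0 : V)
        intro h
        refine hx (hfi ?_)
        rw [map_zero]
        exact (Submodule.mem_bot A).1 (h ▸ LinearMap.mem_range_self f x)
      have htop : LinearMap.range f = ⊤ := by
        simpa [hd _ _ hc hne] using hc.sup_eq_top
      exact ⟨LinearEquiv.ofBijective f ⟨hfi, LinearMap.range_eq_top.1 htop⟩⟩

end Vale.Agent.P195.IT
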