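import Vale.Agent.P195.Shift
import Vale.Agent.P195.IT.Retract

/-!
Lengths of Ext modules over the central subring.
-/

set_option linter.unusedSectionVars false
set_option linter.style.haveILetI false

namespace Vale.Agent.P195.IT

open CategoryTheory CategoryTheory.Abelian
open scoped ModuleCat.Algebra

universe u

variable (R : Type u) [CommRing R] [IsArtinianRing R] {A : Type u} [Ring A] [Algebra R A]
  [Module.Finite R A]

theorem ext_finite : ∀ (k : ℕ) (M Y : ModuleCat.{u} A) [Module.Finite A M] [Module.Finite A Y],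
    Module.Finite R (Ext M Y k) := by
  intro k
  induction k with
  | zero =>
    intro M Y _ _
    haveI : Module.Finite R (M →ₗ[A] Y) := hom_finite R
    haveI : Module.Finite R (M ⟶ Y) :=
      Module.Finite.equiv (ModuleCat.homLinearEquiv (M := M) (N := Y) (S := R)).symm
    exact Module.Finite.equiv (Ext.linearEquiv₀ (R := R) (X := M) (Y := Y)).symm
  | succ k ih =>
    intro M Y _ _
    haveI : IsArtinianRing A := IsArtinianRing.of_finite R A
    obtain ⟨C, rfl⟩ := exists_chain M
    haveI : Module.Finite A (C.M 1) := C.finM 1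
    haveI : Module.Finite R (Ext (C.S 0).X₁ Y k) := ih (C.M 1) Y
    haveI : Module.Projective A (C.S 0).X₂ := C.projP 0
    haveI : CategoryTheory.Projective (C.S 0).X₂ :=
      (IsProjective.iff_projective (C.S 0).X₂).mp (C.projP 0)
    refine Module.Finite.of_surjective
      ((C.S_exact 0).extClass.precompOfLinear R Y (show 1 + k = k + 1 from add_comm 1 k)) ?_
    intro x
    obtain ⟨y, hy⟩ := Ext.contravariant_sequence_exact₃ (C.S_exact 0) Y x
      (Ext.eq_zero_of_projective _) (show 1 + k = k + 1 from add_comm 1 k)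
    exact ⟨y, hy⟩

/-- The length of `Ext^k(M, Y)` over the central subring. -/
noncomputable def elen (M Y : ModuleCat.{u} A) (k : ℕ) : ℕ :=
  (Module.length R (Ext M Y k)).toNat

/-- Postcomposition with a morphism, as a linear map. -/
noncomputable def pm (M : ModuleCat.{u} A) {Y Y' : ModuleCat.{u} A} (g : Y ⟶ Y') (k : ℕ) :
    Ext M Y k →ₗ[R] Ext M Y' k :=
  (Ext.mk₀ g).postcompOfLinear R M (add_zero k)

theorem pm_apply (M : ModuleCat.{u} A) {Y Y' : ModuleCat.{u} A} (g : Y ⟶ Y') (k : ℕ)
    (x : Ext M Y k) : pm R M g k x = x.comp (Ext.mk₀ g) (add_zero k) := rfl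

theorem pm_comp (M : ModuleCat.{u} A) {Y Y' Y'' : ModuleCat.{u} A} (g : Y ⟶ Y') (h : Y' ⟶ Y'')
    (k : ℕ) (x : Ext M Y k) : pm R M h k (pm R M g k x) = pm R M (g ≫ h) k x := by
  simp [pm_apply]

theorem pm_id (M Y : ModuleCat.{u} A) (k : ℕ) (x : Ext M Y k) : pm R M (𝟙 Y) k x = x :=
  x.comp_mk₀_id

theorem elen_eq_zero (M Y : ModuleCat.{u} A) (k : ℕ) (h : Subsingleton (Ext M Y k)) :
    elen R M Y k = 0 := by
  rw [elen, Module.length_eq_zero]
  rfl

theorem elen_pos (M Y : ModuleCat.{u} A) (k : ℕ) [Module.Finite A M] [Module.Finite A Y]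
    (h : ¬ Subsingleton (Ext M Y k)) : elen R M Y k ≠ 0 := by
  intro h0
  haveI := ext_finite R k M Y
  refine h ((Module.length_eq_zero_iff (R := R)).1 ?_)
  rw [← ENat.natCast_toNat (Module.length_ne_top (R := R) (M := Ext M Y k))]
  exact_mod_cast h0

theorem len_surj {X Y : Type u} [AddCommGroup X] [Module R X] [AddCommGroup Y] [Module R Y]
    [Module.Finite R X] (f : X →ₗ[R] Y) (hf : Function.Surjective f) :
    ((Module.length R X).toNat = (Module.length R Y).toNat → Function.Injective f) ∧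
      (Function.Injective f → (Module.length R X).toNat = (Module.length R Y).toNat) := by
  refine ⟨fun h => ?_, fun h => by rw [(LinearEquiv.ofBijective f ⟨h, hf⟩).length_eq]⟩
  haveI : Module.Finite R Y := Module.Finite.of_surjective f hf
  have h1 := Module.length_eq_add_of_exact (LinearMap.ker f).subtype f
    (Submodule.subtype_injective _) hf (LinearMap.exact_subtype_ker_map f)
  have hk : Module.length R (LinearMap.ker f) = 0 := by
    rw [← ENat.natCast_toNat (Module.length_ne_top (R := R) (M := X)),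
      ← ENat.natCast_toNat (Module.length_ne_top (R := R) (M := Y)),
      ← ENat.natCast_toNat (Module.length_ne_top (R := R) (M := LinearMap.ker f))] at h1
    rw [← ENat.natCast_toNat (Module.length_ne_top (R := R) (M := LinearMap.ker f))]
    norm_cast at h1 ⊢
    omega
  rw [← LinearMap.ker_eq_bot, eq_bot_iff]
  intro x hx
  haveI := (Module.length_eq_zero_iff (R := R)).1 hk
  exact (Submodule.mem_bot R).2 (congrArg Subtype.val (Subsingleton.elim (⟨x, hx⟩ : LinearMap.ker f) 0))

/-- Ext lengths add up along a direct decomposition. -/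
theorem elen_split (M : ModuleCat.{u} A) [Module.Finite A M] (V : ModuleCat.{u} A)
    [Module.Finite A V] {p q : Submodule A V} (h : IsCompl p q) [Module.Finite A p]
    [Module.Finite A q] (k : ℕ) :
    elen R M V k = elen R M (ModuleCat.of A p) k + elen R M (ModuleCat.of A q) k := by
  let ip : ModuleCat.of A p ⟶ V := ModuleCat.ofHom p.subtype
  let iq : ModuleCat.of A q ⟶ V := ModuleCat.ofHom q.subtype
  let pp : V ⟶ ModuleCat.of A p := ModuleCat.ofHom (p.projectionOnto q h)
  let pq : V ⟶ ModuleCat.of A q := ModuleCat.ofHom (q.projectionOnto p h.symm)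
  have h1 : ip ≫ pp = 𝟙 _ := ModuleCat.hom_ext (LinearMap.ext fun x =>
    Submodule.projectionOnto_apply_left h x)
  have h2 : iq ≫ pq = 𝟙 _ := ModuleCat.hom_ext (LinearMap.ext fun x =>
    Submodule.projectionOnto_apply_left h.symm x)
  have h3 : ip ≫ pq = 0 := ModuleCat.hom_ext (LinearMap.ext fun x =>
    Submodule.projectionOnto_apply_right h.symm x)
  have h4 : iq ≫ pp = 0 := ModuleCat.hom_ext (LinearMap.ext fun x =>
    Submodule.projectionOnto_apply_right h x)
  have h5 : pp ≫ ip + pq ≫ iq = 𝟙 V := ModuleCat.hom_ext (LinearMap.ext fun x =>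
    Submodule.projection_add_projection_eq_self h x)
  let e : Ext M V k ≃ₗ[R] Ext M (ModuleCat.of A p) k × Ext M (ModuleCat.of A q) k :=
    { LinearMap.prod (pm R M pp k) (pm R M pq k) with
      invFun := fun x => pm R M ip k x.1 + pm R M iq k x.2
      left_inv := fun x => by
        show pm R M ip k (pm R M pp k x) + pm R M iq k (pm R M pq k x) = x
        rw [pm_comp, pm_comp, pm_apply, pm_apply, ← Ext.comp_add, ← Ext.mk₀_add, h5,
          Ext.comp_mk₀_id]
      right_inv := fun x => by
        refine Prod.ext ?_ ?_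
        · show pm R M pp k (pm R M ip k x.1 + pm R M iq k x.2) = x.1
          rw [map_add, pm_comp, pm_comp, h1, h4, pm_id]
          simp [pm_apply]
        · show pm R M pq k (pm R M ip k x.1 + pm R M iq k x.2) = x.2
          rw [map_add, pm_comp, pm_comp, h3, h2, pm_id]
          simp [pm_apply] }
  haveI := ext_finite R k M (ModuleCat.of A p)
  haveI := ext_finite R k M (ModuleCat.of A q)
  rw [elen, e.length_eq, Module.length_prod, ENat.toNat_add Module.length_ne_top
    Module.length_ne_top]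
  rfl

theorem elen_congr (M : ModuleCat.{u} A) {Y Y' : ModuleCat.{u} A} (e : Y ≅ Y') (k : ℕ) :
    elen R M Y k = elen R M Y' k := by
  have hb : Function.Bijective (pm R M e.hom k) := by
    refine Function.bijective_iff_has_inverse.2 ⟨pm R M e.inv k, fun x => ?_, fun x => ?_⟩
    · rw [pm_comp, e.hom_inv_id, pm_id]
    · rw [pm_comp, e.inv_hom_id, pm_id]
  rw [elen, elen, (LinearEquiv.ofBijective _ hb).length_eq]

/-- Vanishing passes to retracts. -/
theorem sub_of_retr {M : ModuleCat.{u} A} {V Y : ModuleCat.{u} A} {k : ℕ} (h : Retr A V Y)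
    (hY : Subsingleton (Ext M Y k)) : Subsingleton (Ext M V k) := by
  obtain ⟨f, g, hfg⟩ := h
  refine subsingleton_of_forall_eq 0 fun x => ?_
  have h1 : ModuleCat.ofHom f ≫ ModuleCat.ofHom g = 𝟙 V := ModuleCat.hom_ext hfg
  rw [← x.comp_mk₀_id, ← h1, ← Ext.mk₀_comp_mk₀, ← Ext.comp_assoc_of_third_deg_zero,
    hY.elim (x.comp (Ext.mk₀ (ModuleCat.ofHom f)) (add_zero k)) 0, Ext.zero_comp]

/-- Vanishing passes to binary products. -/
theorem sub_prod {M : ModuleCat.{u} A} {Y Y' : ModuleCat.{u} A} {k : ℕ}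
    (hY : Subsingleton (Ext M Y k)) (hY' : Subsingleton (Ext M Y' k)) :
    Subsingleton (Ext M (ModuleCat.of A (Y × Y')) k) := by
  refine subsingleton_of_forall_eq 0 fun x => ?_
  let p1 : ModuleCat.of A (Y × Y') ⟶ Y := ModuleCat.ofHom (LinearMap.fst A Y Y')
  let p2 : ModuleCat.of A (Y × Y') ⟶ Y' := ModuleCat.ofHom (LinearMap.snd A Y Y')
  let i1 : Y ⟶ ModuleCat.of A (Y × Y') := ModuleCat.ofHom (LinearMap.inl A Y Y')
  let i2 : Y' ⟶ ModuleCat.of A (Y × Y') := ModuleCat.ofHom (LinearMap.inr A Y Y')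
  have h : p1 ≫ i1 + p2 ≫ i2 = 𝟙 _ := ModuleCat.hom_ext (LinearMap.ext fun x => by
    show ((x.1, (0 : Y')) : Y × Y') + ((0 : Y), x.2) = x
    simp)
  rw [← x.comp_mk₀_id, ← h, Ext.mk₀_add, Ext.comp_add, ← Ext.mk₀_comp_mk₀, ← Ext.mk₀_comp_mk₀,
    ← Ext.comp_assoc_of_third_deg_zero, ← Ext.comp_assoc_of_third_deg_zero,
    hY.elim (x.comp (Ext.mk₀ p1) (add_zero k)) 0, hY'.elim (x.comp (Ext.mk₀ p2) (add_zero k)) 0]
  simp

theorem sub_zero_obj {M V : ModuleCat.{u} A} {k : ℕ} [Subsingleton V] :
    Subsingleton (Ext M V k) := by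
  refine subsingleton_of_forall_eq 0 fun x => ?_
  have h : 𝟙 V = 0 := ModuleCat.hom_ext (LinearMap.ext fun v => Subsingleton.elim _ _)
  rw [← x.comp_mk₀_id, h]
  simp

end Vale.Agent.P195.IT
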