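import Vale.Agent.P195.IT.Core

/-!
The Auslander-Reiten conjecture for algebras of Igusa-Todorov type, and corollaries.
-/

set_option linter.unusedSectionVars false
set_option linter.style.haveILetI false

namespace Vale.Agent.P195.IT

open CategoryTheory CategoryTheory.Abelian

universe u

variable {A : Type u} [Ring A]

/-- `V` is a direct summand of `Z^n × Xp × Xi` with `Xp` finitely generated of finite projective
dimension and `Xi` of injective dimension at most `b`. -/
def InAddPlus (b : ℕ) (Z V : ModuleCat.{u} A) : Prop :=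
  ∃ (n : ℕ) (Xp Xi : ModuleCat.{u} A), Module.Finite A Xp ∧
    (∃ m, HasProjectiveDimensionLT Xp m) ∧ HasInjectiveDimensionLT Xi (b + 1) ∧
    Retr A V ((Fin n → Z) × (Xp × Xi))

/-- As `InAddPlus`, with projective dimension at most `b` as well. -/
def InAddPlusLE (b : ℕ) (Z V : ModuleCat.{u} A) : Prop :=
  ∃ (n : ℕ) (Xp Xi : ModuleCat.{u} A), Module.Finite A Xp ∧
    HasProjectiveDimensionLT Xp (b + 1) ∧ HasInjectiveDimensionLT Xi (b + 1) ∧
    Retr A V ((Fin n → Z) × (Xp × Xi))

theorem pd_neg [IsArtinianRing A] {M : ModuleCat.{u} A} : ∀ (m : ℕ) (X : ModuleCat.{u} A),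
    Module.Finite A X → HasProjectiveDimensionLT X m → ∀ k,
      (∀ l, k ≤ l → l ≤ k + m → Subsingleton (Ext M (ModuleCat.of A A) l)) →
        Subsingleton (Ext M X k) := by
  intro m
  induction m with
  | zero =>
    intro X _ hX k _
    haveI := hX
    haveI : Subsingleton X :=
      (ModuleCat.isZero_iff_subsingleton).1 (isZero_of_hasProjectiveDimensionLT_zero X)
    exact sub_zero_obj
  | succ m ih =>
    intro X hXf hX k h
    rcases m with _ | m
    · haveI := hX
      haveI : Module.Projective A X :=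
        (IsProjective.iff_projective X).mpr inferInstance
      exact ext_proj (h k le_rfl (by omega)) X
    · obtain ⟨C, rfl⟩ := exists_chain X
      haveI : Module.Projective A (C.S 0).X₂ := C.projP 0
      haveI : CategoryTheory.Projective (C.S 0).X₂ :=
        (IsProjective.iff_projective (C.S 0).X₂).mp (C.projP 0)
      haveI : HasProjectiveDimensionLT (C.S 0).X₂ (m + 1) :=
        hasProjectiveDimensionLT_of_ge _ 1 _ (by omega)
      have h1 : HasProjectiveDimensionLT (C.M 1) (m + 1) :=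
        (C.S_exact 0).hasProjectiveDimensionLT_X₁ (m + 1) inferInstance hX
      haveI := C.finP 0
      haveI : Module.Projective A (C.P 0) := C.projP 0
      exact ext_down (C.S_exact 0) (ih (C.M 1) (C.finM 1) h1 (k + 1) fun l h1 h2 =>
        h l (by omega) (by omega)) (ext_proj (h k le_rfl (by omega)) (C.P 0))

theorem good_of_parts [IsArtinianRing A] {Z M V Xp Xi : ModuleCat.{u} A} {b L n m : ℕ}
    (hf : Module.Finite A Xp) (hp : HasProjectiveDimensionLT Xp m)
    (hA : ∀ l, 1 ≤ l → l ≤ L + m → Subsingleton (Ext M (ModuleCat.of A A) l))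
    (hi : HasInjectiveDimensionLT Xi (b + 1)) (hr : Retr A V ((Fin n → Z) × (Xp × Xi))) :
    Good Z M b L V :=
  ⟨n, ModuleCat.of A (Xp × Xi), fun k h1 h2 =>
    sub_prod (pd_neg m Xp hf hp k fun l h3 h4 => hA l (by omega) (by omega))
      (haveI := hi; HasInjectiveDimensionLT.subsingleton Xi (b + 1) k h1 M), hr⟩

/-- A module with vanishing self-extensions is projective if syzygies of arbitrarily high degree
are of two-term type. -/
theorem arc_module (R : Type u) [CommRing R] [IsArtinianRing R] [Algebra R A]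
    [Module.Finite R A] (Z : ModuleCat.{u} A) [Module.Finite A Z] (b : ℕ)
    (M : ModuleCat.{u} A) (hM : Module.Finite A M)
    (hE : ∀ k, 1 ≤ k → Subsingleton (Ext M M k) ∧ Subsingleton (Ext M (ModuleCat.of A A) k))
    (h : ∀ D, ∃ d, D ≤ d ∧ ∃ K P V1 V0 : ModuleCat.{u} A, Module.Finite A K ∧ Module.Finite A V1 ∧
        Module.Finite A V0 ∧ Module.Finite A P ∧ Module.Projective A P ∧ IsSyzygy d M K ∧
        InAddPlus b Z V1 ∧ InAddPlus b Z V0 ∧ TwoTerm (ModuleCat.of A (K × P)) V1 V0) :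
    Module.Projective A M := by
  haveI : IsArtinianRing A := IsArtinianRing.of_finite R A
  obtain ⟨σ, W, -, hW⟩ := finitely_many_indec _ Z ‹_› le_rfl
  choose g hg hdec using h
  let f : ℕ → ℕ := fun n => Nat.rec (g (b + 1)) (fun _ p => g (p + 2)) n
  have hf : ∀ n, ∃ D, f n = g D ∧ b < D := by
    intro n
    induction n with
    | zero => exact ⟨b + 1, rfl, by omega⟩
    | succ n ih =>
      obtain ⟨D, hD, hb⟩ := ih
      have := hg D
      exact ⟨f n + 2, rfl, by omega⟩
  have hstep : ∀ i j, i < j → f i + 2 ≤ f j := by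
    intro i j hij
    induction j with
    | zero => omega
    | succ j ih =>
      have h1 : f j + 2 ≤ f (j + 1) := hg (f j + 2)
      rcases Nat.lt_succ_iff_lt_or_eq.1 hij with h2 | h2
      · have := ih h2
        omega
      · subst h2
        exact h1
  refine core_at R W hW hM (b := b) (N := f (2 * σ) + 2) (fun m => f m)
    (fun i j hij => hstep i j hij) (fun i => ?_) (fun i => ?_) (fun k h1 _ => hE k h1) fun i => ?_
  · obtain ⟨D, hD, hb⟩ := hf i
    have := hg D
    show b < f i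
    omega
  · rcases Nat.lt_or_ge (i : ℕ) (2 * σ) with h1 | h1
    · have := hstep i (2 * σ) h1
      show f i + 2 ≤ _
      omega
    · have := i.2
      rw [show (i : ℕ) = 2 * σ by omega]
  · obtain ⟨D, hD, -⟩ := hf i
    obtain ⟨K, P, V1, V0, h1, h2, h3, h4, h5, h6, ⟨n1, Xp1, Xi1, hf1, ⟨m1, hp1⟩, hi1, hr1⟩,
      ⟨n0, Xp0, Xi0, hf0, ⟨m0, hp0⟩, hi0, hr0⟩, h7⟩ := hdec D
    show ∃ K P V1 V0, _ ∧ _ ∧ _ ∧ _ ∧ _ ∧ IsSyzygy (f i) M K ∧ _
    rw [hD]
    exact ⟨K, P, V1, V0, h1, h2, h3, h4, h5, h6,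
      good_of_parts hf1 hp1 (fun l hl _ => (hE l hl).2) hi1 hr1,
      good_of_parts hf0 hp0 (fun l hl _ => (hE l hl).2) hi0 hr0, h7⟩

/-- The bounded-range form. -/
theorem arc_igusa_todorov_bounded (R : Type u) [CommRing R] [IsArtinianRing R] [Algebra R A]
    [Module.Finite R A] (Z : ModuleCat.{u} A) [Module.Finite A Z] (b t : ℕ)
    (h : ∀ X : ModuleCat.{u} A, Module.Finite A X →
      ∃ K P V1 V0 : ModuleCat.{u} A, Module.Finite A K ∧ Module.Finite A V1 ∧ Module.Finite A V0 ∧
        Module.Finite A P ∧ Module.Projective A P ∧ IsSyzygy t X K ∧ InAddPlusLE b Z V1 ∧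
        InAddPlusLE b Z V0 ∧ TwoTerm (ModuleCat.of A (K × P)) V1 V0) :
    ∃ N : ℕ, ∀ M : ModuleCat.{u} A, Module.Finite A M →
      (∀ k, 1 ≤ k → k ≤ N →
        Subsingleton (Ext M M k) ∧ Subsingleton (Ext M (ModuleCat.of A A) k)) →
      Module.Projective A M := by
  haveI : IsArtinianRing A := IsArtinianRing.of_finite R A
  obtain ⟨N, hN⟩ := core R Z b t
  refine ⟨N + (b + 1), fun M hM hE => ?_⟩
  obtain ⟨C, hC⟩ := exists_chain M
  refine hN M hM (fun k h1 h2 => hE k h1 (by omega)) C hC fun i _ _ => ?_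
  obtain ⟨K, P, V1, V0, h1, h2, h3, h4, h5, h6, ⟨n1, Xp1, Xi1, hf1, hp1, hi1, hr1⟩,
    ⟨n0, Xp0, Xi0, hf0, hp0, hi0, hr0⟩, h7⟩ := h (C.M i) (C.finM i)
  exact ⟨K, P, V1, V0, h1, h2, h3, h4, h5, h6,
    good_of_parts hf1 hp1 (fun l h1 h2 => (hE l h1 h2).2) hi1 hr1,
    good_of_parts hf0 hp0 (fun l h1 h2 => (hE l h1 h2).2) hi0 hr0, h7⟩

theorem inAddPlusLE_of_retr {V Y : ModuleCat.{u} A} {r : ℕ} (h : Retr A V (Fin r → Y)) :
    InAddPlusLE 0 Y V := by
  have hz : Limits.IsZero (ModuleCat.of A (Fin 0 → A)) :=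
    ModuleCat.isZero_iff_subsingleton.2 (inferInstanceAs (Subsingleton (Fin 0 → A)))
  haveI := hz.hasProjectiveDimensionLT_zero
  haveI := hz.hasInjectiveDimensionLT_zero
  refine ⟨r, ModuleCat.of A (Fin 0 → A), ModuleCat.of A (Fin 0 → A),
    inferInstanceAs (Module.Finite A (Fin 0 → A)), hasProjectiveDimensionLT_of_ge _ 0 _ (by omega),
    hasInjectiveDimensionLT_of_ge _ 0 _ (by omega), h.trans ?_⟩
  exact ⟨LinearMap.inl A _ _, LinearMap.fst A _ _, rfl⟩

/-- Algebras with `J^(n+m+1) = 0` such that the modules killed by `J^n` and those killed by `J^m`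
have finitely many indecomposables. -/
theorem arc_radical_power (R : Type u) [CommRing R] [IsArtinianRing R] [Algebra R A]
    [Module.Finite R A] (n m : ℕ) (hJ : Ring.jacobson A ^ (n + m + 1) = ⊥)
    (Z Z' : ModuleCat.{u} A) [Module.Finite A Z] [Module.Finite A Z']
    (hn : ∀ X : ModuleCat.{u} A, Module.Finite A X →
      Ring.jacobson A ^ n • (⊤ : Submodule A X) = ⊥ → ∃ r : ℕ, Retr A X (Fin r → Z))
    (hm : ∀ X : ModuleCat.{u} A, Module.Finite A X →
      Ring.jacobson A ^ m • (⊤ : Submodule A X) = ⊥ → ∃ r : ℕ, Retr A X (Fin r → Z')) :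
    ∃ N : ℕ, ∀ M : ModuleCat.{u} A, Module.Finite A M →
      (∀ k, 1 ≤ k → k ≤ N →
        Subsingleton (Ext M M k) ∧ Subsingleton (Ext M (ModuleCat.of A A) k)) →
      Module.Projective A M := by
  haveI : IsArtinianRing A := IsArtinianRing.of_finite R A
  refine arc_igusa_todorov_bounded R (ModuleCat.of A (Z × Z')) 0 1 fun X hX => ?_
  obtain ⟨C, rfl⟩ := exists_chain X
  haveI := C.finM 1
  set J := Ring.jacobson A with hJdef
  let U : Submodule A (C.M 1) := J ^ m • ⊤
  have hUf : Module.Finite A U := Module.Finite.of_fg (IsNoetherian.noetherian U)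
  -- powers of the radical times the submodule of a radical
  have hmul : ∀ a b : ℕ, J ^ a • (J ^ b • (⊤ : Submodule A (C.M 1))) =
      J ^ (a + b) • (⊤ : Submodule A (C.M 1)) := by
    intro a b
    induction a with
    | zero => rw [Submodule.pow_zero, Ideal.one_eq_top, Submodule.top_smul, zero_add]
    | succ a ih =>
      have hs : ∀ (c : ℕ) (N : Submodule A (C.M 1)), J ^ (c + 1) • N = J • (J ^ c • N) := by
        intro c N
        rw [Ideal.IsTwoSided.pow_succ, Submodule.mul_smul]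
      rw [hs, ih, Nat.succ_add, hs]
  have hkill : J ^ (n + m) • (⊤ : Submodule A (C.M 1)) = ⊥ := by
    apply Submodule.map_injective_of_injective (C.inj 0)
    rw [Submodule.map_smul'', Submodule.map_bot, eq_bot_iff, Submodule.map_top]
    calc J ^ (n + m) • LinearMap.range (C.ι 0)
        ≤ J ^ (n + m) • (J • (⊤ : Submodule A (C.P 0))) := by
          refine smul_mono_right _ ?_
          rintro _ ⟨x, rfl⟩
          exact C.small 0 x
      _ ≤ J ^ (n + m + 1) • (⊤ : Submodule A (C.P 0)) := by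
          rcases Nat.eq_zero_or_pos (n + m) with h0 | h0
          · rw [h0, Submodule.pow_zero, Ideal.one_eq_top, Submodule.top_smul, zero_add,
              Submodule.pow_one]
          · rw [Submodule.pow_succ, Submodule.mul_smul]
      _ = ⊥ := by rw [hJ, Submodule.bot_smul]
  obtain ⟨r1, hr1⟩ := hn (ModuleCat.of A U) hUf (by
    apply Submodule.map_injective_of_injective (Submodule.subtype_injective U)
    rw [smul_top_sub, Submodule.map_bot]
    exact (hmul n m).trans hkill)
  obtain ⟨r0, hr0⟩ := hm (ModuleCat.of A (C.M 1 ⧸ U)) (inferInstanceAs (Module.Finite A (C.M 1 ⧸ U)))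
    (quot_killed (J ^ m))
  let P : ModuleCat.{u} A := ModuleCat.of A (Fin 0 → A)
  refine ⟨C.M 1, P, ModuleCat.of A U, ModuleCat.of A (C.M 1 ⧸ U), C.finM 1, hUf,
    inferInstanceAs (Module.Finite A (C.M 1 ⧸ U)), inferInstanceAs (Module.Finite A (Fin 0 → A)),
    inferInstanceAs (Module.Projective A (Fin 0 → A)), chain_syz C 1 0, ?_, ?_, Or.inr ?_⟩
  · exact inAddPlusLE_of_retr (hr1.trans ⟨LinearMap.pi fun i => LinearMap.inl A Z Z' ∘ₗ LinearMap.proj i,
      LinearMap.pi fun i => LinearMap.fst A Z Z' ∘ₗ LinearMap.proj i, rfl⟩)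
  · exact inAddPlusLE_of_retr (hr0.trans ⟨LinearMap.pi fun i => LinearMap.inr A Z Z' ∘ₗ LinearMap.proj i,
      LinearMap.pi fun i => LinearMap.snd A Z Z' ∘ₗ LinearMap.proj i, rfl⟩)
  · refine ⟨LinearMap.inl A (C.M 1) P ∘ₗ U.subtype, U.mkQ ∘ₗ LinearMap.fst A (C.M 1) P,
      LinearMap.inl_injective.comp (Submodule.subtype_injective U),
      (Submodule.mkQ_surjective U).comp LinearMap.fst_surjective, fun y => ?_⟩
    constructor
    · intro hy
      refine ⟨⟨y.1, (Submodule.Quotient.mk_eq_zero U).1 hy⟩, Prod.ext rfl ?_⟩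
      exact Subsingleton.elim (α := Fin 0 → A) _ _
    · rintro ⟨x, rfl⟩
      exact (Submodule.Quotient.mk_eq_zero U).2 x.2

/-- Modules killed by the radical are summands of powers of `A/J`. -/
theorem killed_retr [IsArtinianRing A] (X : ModuleCat.{u} A) (hX : Module.Finite A X)
    (hk : Ring.jacobson A • (⊤ : Submodule A X) = ⊥) :
    ∃ r : ℕ, Retr A X (Fin r → A ⧸ Ring.jacobson A • (⊤ : Submodule A A)) := by
  obtain ⟨r, g, hg⟩ := Module.Finite.exists_fin' A X
  let I : Submodule A A := Ring.jacobson A • ⊤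
  have hI : ∀ i, I ≤ LinearMap.ker (g ∘ₗ LinearMap.single A (fun _ : Fin r => A) i) := by
    intro i x hx
    have h1 := Submodule.mem_map_of_mem (f := g ∘ₗ LinearMap.single A (fun _ : Fin r => A) i) hx
    rw [Submodule.map_smul''] at h1
    have h2 : (g ∘ₗ LinearMap.single A (fun _ : Fin r => A) i) x ∈
        Ring.jacobson A • (⊤ : Submodule A X) :=
      (show _ • _ ≤ _ • (⊤ : Submodule A _) from smul_mono_right _ le_top) h1
    rw [hk, Submodule.mem_bot] at h2
    exact h2
  let q : (Fin r → A ⧸ I) →ₗ[A] X :=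
    ∑ i, Submodule.liftQ I (g ∘ₗ LinearMap.single A (fun _ : Fin r => A) i) (hI i) ∘ₗ LinearMap.proj i
  have hq : Function.Surjective q := by
    intro x
    obtain ⟨v, rfl⟩ := hg x
    refine ⟨fun i => Submodule.Quotient.mk (v i), ?_⟩
    simp only [q, LinearMap.sum_apply, LinearMap.comp_apply, LinearMap.proj_apply,
      Submodule.liftQ_apply]
    rw [← map_sum]
    exact congrArg g (Finset.univ_sum_single v)
  haveI : IsSemisimpleModule A (Fin r → A ⧸ I) := by
    refine ss_of_killed (eq_bot_iff.2 (Submodule.smul_le.2 fun a ha x _ => ?_))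
    rw [Submodule.mem_bot]
    funext i
    exact (Submodule.mem_bot A).1
      (quot_killed (X := A) (Ring.jacobson A) ▸ Submodule.smul_mem_smul ha (Submodule.mem_top (x := x i)))
  obtain ⟨p, hp⟩ := exists_isCompl (LinearMap.ker q)
  have hb : Function.Bijective (q ∘ₗ p.subtype) := by
    refine ⟨?_, fun x => ?_⟩
    · rw [← LinearMap.ker_eq_bot, eq_bot_iff]
      intro y hy
      have h1 : (y : Fin r → A ⧸ I) ∈ LinearMap.ker q ⊓ p := ⟨hy, y.2⟩
      rw [hp.inf_eq_bot, Submodule.mem_bot] at h1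
      exact (Submodule.mem_bot A).2 (Subtype.ext h1)
    · obtain ⟨y, rfl⟩ := hq x
      obtain ⟨a, ha, c, hc, rfl⟩ := Submodule.mem_sup.1 (hp.sup_eq_top ▸ Submodule.mem_top (x := y))
      exact ⟨⟨c, hc⟩, by simp [LinearMap.mem_ker.1 ha]⟩
  let e := LinearEquiv.ofBijective _ hb
  exact ⟨r, p.subtype ∘ₗ e.symm.toLinearMap, q, LinearMap.ext fun x => e.apply_symm_apply x⟩

/-- Radical cube zero. -/
theorem arc_rad_cube (R : Type u) [CommRing R] [IsArtinianRing R] [Algebra R A]
    [Module.Finite R A] (hJ : Ring.jacobson A ^ 3 = ⊥) :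
    ∃ N : ℕ, ∀ M : ModuleCat.{u} A, Module.Finite A M →
      (∀ k, 1 ≤ k → k ≤ N →
        Subsingleton (Ext M M k) ∧ Subsingleton (Ext M (ModuleCat.of A A) k)) →
      Module.Projective A M := by
  haveI : IsArtinianRing A := IsArtinianRing.of_finite R A
  let Z : ModuleCat.{u} A := ModuleCat.of A (A ⧸ Ring.jacobson A • (⊤ : Submodule A A))
  haveI : Module.Finite A Z :=
    inferInstanceAs (Module.Finite A (A ⧸ Ring.jacobson A • (⊤ : Submodule A A)))
  exact arc_radical_power R 1 1 hJ Z Z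
    (fun X hX h => killed_retr X hX (by rwa [Submodule.pow_one] at h))
    (fun X hX h => killed_retr X hX (by rwa [Submodule.pow_one] at h))

theorem InAddPlusLE.toPlus {b : ℕ} {Z V : ModuleCat.{u} A} (h : InAddPlusLE b Z V) :
    InAddPlus b Z V := by
  obtain ⟨n, Xp, Xi, h1, h2, h3, h4⟩ := h
  exact ⟨n, Xp, Xi, h1, ⟨_, h2⟩, h3, h4⟩

/-- Arbitrarily high syzygies killed by the square of the radical force projectivity. -/
theorem arc_short_syzygies (R : Type u) [CommRing R] [IsArtinianRing R] [Algebra R A]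
    [Module.Finite R A] (M : ModuleCat.{u} A) (hM : Module.Finite A M)
    (hE : ∀ k, 1 ≤ k → Subsingleton (Ext M M k) ∧ Subsingleton (Ext M (ModuleCat.of A A) k))
    (h : ∀ D, ∃ d, D ≤ d ∧ ∃ K : ModuleCat.{u} A, Module.Finite A K ∧ IsSyzygy d M K ∧
      Ring.jacobson A ^ 2 • (⊤ : Submodule A K) = ⊥) :
    Module.Projective A M := by
  haveI : IsArtinianRing A := IsArtinianRing.of_finite R A
  let Z : ModuleCat.{u} A := ModuleCat.of A (A ⧸ Ring.jacobson A • (⊤ : Submodule A A))
  haveI : Module.Finite A Z :=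
    inferInstanceAs (Module.Finite A (A ⧸ Ring.jacobson A • (⊤ : Submodule A A)))
  refine arc_module R Z 0 M hM hE fun D => ?_
  obtain ⟨d, hd, K, hK, hsyz, hk⟩ := h D
  let U : Submodule A K := Ring.jacobson A • ⊤
  have hUf : Module.Finite A U := Module.Finite.of_fg (IsNoetherian.noetherian U)
  obtain ⟨r1, hr1⟩ := killed_retr (ModuleCat.of A U) hUf (by
    apply Submodule.map_injective_of_injective (Submodule.subtype_injective U)
    rw [smul_top_sub, Submodule.map_bot, ← hk, Submodule.pow_succ, Submodule.pow_one,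
      Submodule.mul_smul])
  obtain ⟨r0, hr0⟩ := killed_retr (ModuleCat.of A (K ⧸ U))
    (inferInstanceAs (Module.Finite A (K ⧸ U))) (quot_killed (Ring.jacobson A))
  let P : ModuleCat.{u} A := ModuleCat.of A (Fin 0 → A)
  refine ⟨d, hd, K, P, ModuleCat.of A U, ModuleCat.of A (K ⧸ U), hK, hUf,
    inferInstanceAs (Module.Finite A (K ⧸ U)), inferInstanceAs (Module.Finite A (Fin 0 → A)),
    inferInstanceAs (Module.Projective A (Fin 0 → A)), hsyz,
    (inAddPlusLE_of_retr (Y := Z) hr1).toPlus, (inAddPlusLE_of_retr (Y := Z) hr0).toPlus,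
    Or.inr ⟨LinearMap.inl A K P ∘ₗ U.subtype, U.mkQ ∘ₗ LinearMap.fst A K P,
      LinearMap.inl_injective.comp (Submodule.subtype_injective U),
      (Submodule.mkQ_surjective U).comp LinearMap.fst_surjective, fun y => ?_⟩⟩
  constructor
  · intro hy
    refine ⟨⟨y.1, (Submodule.Quotient.mk_eq_zero U).1 hy⟩, Prod.ext rfl ?_⟩
    exact Subsingleton.elim (α := Fin 0 → A) _ _
  · rintro ⟨x, rfl⟩
    exact (Submodule.Quotient.mk_eq_zero U).2 x.2

end Vale.Agent.P195.IT
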