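import Vale.Agent.P195.IT.Len

/-!
Syzygies of a fixed degree, dimension shifting and stable retractions.
-/

set_option linter.unusedSectionVars false
set_option linter.style.haveILetI false

namespace Vale.Agent.P195.IT

open CategoryTheory CategoryTheory.Abelian

universe u

variable {A : Type u} [Ring A]

/-- `K` is a `t`-th syzygy of `X`: there are short exact sequences `0 → Yⱼ₊₁ → Pⱼ → Yⱼ → 0`,
`j < t`, with `Pⱼ` finitely generated projective, `Y₀ = X` and `Yₜ = K`. -/
def IsSyzygy : ℕ → ModuleCat.{u} A → ModuleCat.{u} A → Prop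
  | 0, X, K => X = K
  | t + 1, X, K => ∃ (P Y : ModuleCat.{u} A) (i : Y →ₗ[A] P) (p : P →ₗ[A] X),
      Module.Finite A P ∧ Module.Projective A P ∧ Function.Injective i ∧ Function.Surjective p ∧
        Function.Exact i p ∧ IsSyzygy t Y K

theorem IsSyzygy.trans : ∀ (s : ℕ) {X Y : ModuleCat.{u} A}, IsSyzygy s X Y →
    ∀ {t : ℕ} {K : ModuleCat.{u} A}, IsSyzygy t Y K → IsSyzygy (s + t) X K := by
  intro s
  induction s with
  | zero =>
    intro X Y h t K h'
    have h0 : X = Y := h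
    subst h0
    rwa [zero_add]
  | succ s ih =>
    intro X Y h t K h'
    obtain ⟨P, Y1, i, p, h1, h2, h3, h4, h5, h6⟩ := h
    rw [Nat.succ_add]
    exact ⟨P, Y1, i, p, h1, h2, h3, h4, h5, ih h6 h'⟩

theorem chain_syz (C : Chain A) : ∀ (i j : ℕ), IsSyzygy i (C.M j) (C.M (j + i)) := by
  intro i
  induction i with
  | zero => intro j; rfl
  | succ i ih =>
    intro j
    refine ⟨C.P j, C.M (j + 1), C.ι j, C.π j, C.finP j, C.projP j, C.inj j, C.surj j, C.exact j, ?_⟩
    have h := ih (j + 1)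
    rwa [show j + 1 + i = j + (i + 1) by omega] at h

/-- The short complex of one step. -/
noncomputable abbrev stepSC {X Y P : ModuleCat.{u} A} (i : Y →ₗ[A] P) (p : P →ₗ[A] X)
    (he : Function.Exact i p) : ShortComplex (ModuleCat.{u} A) :=
  ShortComplex.mk (X₁ := Y) (X₂ := P) (X₃ := X) (ModuleCat.ofHom i) (ModuleCat.ofHom p)
    (ModuleCat.hom_ext he.linearMap_comp_eq_zero)

theorem stepSC_exact {X Y P : ModuleCat.{u} A} {i : Y →ₗ[A] P} {p : P →ₗ[A] X}
    (hi : Function.Injective i) (hp : Function.Surjective p) (he : Function.Exact i p) :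
    (stepSC i p he).ShortExact :=
  ModuleCat.shortComplex_shortExact _ he hi hp

theorem ext_up {M : ModuleCat.{u} A} {S : ShortComplex (ModuleCat.{u} A)} (hS : S.ShortExact)
    {l : ℕ} (h3 : Subsingleton (Ext M S.X₃ l)) (h2 : Subsingleton (Ext M S.X₂ (l + 1))) :
    Subsingleton (Ext M S.X₁ (l + 1)) := by
  refine subsingleton_of_forall_eq 0 fun x => ?_
  obtain ⟨y, hy⟩ := Ext.covariant_sequence_exact₁ M hS x (h2.elim _ _) (n₀ := l) rfl
  rw [← hy, h3.elim y 0, Ext.zero_comp]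

theorem ext_down {M : ModuleCat.{u} A} {S : ShortComplex (ModuleCat.{u} A)} (hS : S.ShortExact)
    {l : ℕ} (h1 : Subsingleton (Ext M S.X₁ (l + 1))) (h2 : Subsingleton (Ext M S.X₂ l)) :
    Subsingleton (Ext M S.X₃ l) := by
  refine subsingleton_of_forall_eq 0 fun x => ?_
  obtain ⟨y, hy⟩ := Ext.covariant_sequence_exact₃ M hS x (n₁ := l + 1) rfl (h1.elim _ _)
  rw [← hy, h2.elim y 0, Ext.zero_comp]

theorem syz_up {M : ModuleCat.{u} A} {N : ℕ}
    (hA : ∀ k, 1 ≤ k → k ≤ N → Subsingleton (Ext M (ModuleCat.of A A) k)) :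
    ∀ (t : ℕ) {X K : ModuleCat.{u} A}, IsSyzygy t X K → ∀ l, 1 ≤ l → l + t ≤ N →
      Subsingleton (Ext M X l) → Subsingleton (Ext M K (l + t)) := by
  intro t
  induction t with
  | zero =>
    intro X K h l _ _ hX
    have h0 : X = K := h
    subst h0
    exact hX
  | succ t ih =>
    intro X K h l hl hN hX
    obtain ⟨P, Y, i, p, hP, hP', h3, h4, h5, h6⟩ := h
    have hY : Subsingleton (Ext M Y (l + 1)) :=
      ext_up (stepSC_exact h3 h4 h5) hX (ext_proj (hA _ (by omega) (by omega)) P)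
    have h := ih h6 (l + 1) (by omega) (by omega) hY
    rwa [show l + 1 + t = l + (t + 1) by omega] at h

theorem syz_down {M : ModuleCat.{u} A} {N : ℕ}
    (hA : ∀ k, 1 ≤ k → k ≤ N → Subsingleton (Ext M (ModuleCat.of A A) k)) :
    ∀ (t : ℕ) {X K : ModuleCat.{u} A}, IsSyzygy t X K → ∀ l, 1 ≤ l → l + t ≤ N →
      Subsingleton (Ext M K (l + t)) → Subsingleton (Ext M X l) := by
  intro t
  induction t with
  | zero =>
    intro X K h l _ _ hX
    have h0 : X = K := h
    subst h0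
    exact hX
  | succ t ih =>
    intro X K h l hl hN hK
    obtain ⟨P, Y, i, p, hP, hP', h3, h4, h5, h6⟩ := h
    refine ext_down (stepSC_exact h3 h4 h5) (ih h6 (l + 1) (by omega) (by omega) ?_)
      (ext_proj (hA _ hl (by omega)) P)
    rwa [show l + 1 + t = l + (t + 1) by omega]

/-- A short exact sequence with vanishing first Ext against its kernel splits. -/
theorem proj_of_split {X Y P : ModuleCat.{u} A} {i : Y →ₗ[A] P} {p : P →ₗ[A] X}
    [Module.Projective A P] (hi : Function.Injective i) (hp : Function.Surjective p)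
    (he : Function.Exact i p) (h : Subsingleton (Ext X Y 1)) : Module.Projective A X := by
  obtain ⟨y, hy⟩ := Ext.covariant_sequence_exact₃ X (stepSC_exact hi hp he)
    (Ext.mk₀ (𝟙 (stepSC i p he).X₃)) (n₁ := 1) rfl (h.elim _ _)
  obtain ⟨q, rfl⟩ := Ext.homEquiv₀.symm.surjective y
  have h2 : q ≫ (stepSC i p he).g = 𝟙 (stepSC i p he).X₃ := by
    apply (Ext.mk₀_bijective _ _).1
    rw [← Ext.mk₀_comp_mk₀]
    exact hy
  exact Module.Projective.of_split (q : X ⟶ P).hom p (congrArg ModuleCat.Hom.hom h2)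

theorem proj_of_syz {M K : ModuleCat.{u} A} {N d : ℕ}
    (hA : ∀ k, 1 ≤ k → k ≤ N → Subsingleton (Ext M (ModuleCat.of A A) k)) (hd : 1 ≤ d)
    (hdN : d ≤ N) (hK : IsSyzygy d M K) (h : Subsingleton (Ext M K d)) :
    Module.Projective A M := by
  obtain ⟨d, rfl⟩ := Nat.exists_eq_add_of_le' hd
  obtain ⟨P, Y, i, p, hP, hP', h3, h4, h5, h6⟩ := hK
  haveI := hP'
  refine proj_of_split h3 h4 h5 (syz_down hA d h6 1 le_rfl (by omega) ?_)
  rwa [add_comm 1 d]

/-- If every top-degree class into a syzygy lifts along `g : V → K`, the syzygy is a retract of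
`V` plus a projective module. -/
theorem retr_of_surj : ∀ (d : ℕ) {X K : ModuleCat.{u} A}, IsSyzygy (d + 1) X K →
    ∀ {V : ModuleCat.{u} A} (g : V ⟶ K),
      (∀ y : Ext X K (d + 1), ∃ z : Ext X V (d + 1), z.comp (Ext.mk₀ g) (add_zero _) = y) →
      ∃ P : ModuleCat.{u} A, Module.Finite A P ∧ Module.Projective A P ∧ Retr A K (V × P) := by
  intro d
  induction d with
  | zero =>
    intro X K h V g hs
    obtain ⟨P, Y, i, p, hP, hP', h3, h4, h5, h6⟩ := h
    have h0 : Y = K := h6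
    subst h0
    have hS : (stepSC i p h5).ShortExact := stepSC_exact h3 h4 h5
    haveI : CategoryTheory.Projective P := (IsProjective.iff_projective P).mp hP'
    obtain ⟨η, hη⟩ := hs hS.extClass
    obtain ⟨v, hv⟩ := Ext.contravariant_sequence_exact₃ hS V (n₁ := 1) η
      (Ext.eq_zero_of_projective _) (n₀ := 0) rfl
    obtain ⟨v, rfl⟩ := Ext.homEquiv₀.symm.surjective v
    rw [Ext.homEquiv₀_symm_apply] at hv
    let v' : Y ⟶ V := v
    have h1 : hS.extClass.comp (Ext.mk₀ (𝟙 Y - v' ≫ g)) (add_zero 1) = 0 := by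
      rw [sub_eq_add_neg, Ext.mk₀_add, Ext.comp_add, Ext.mk₀_neg, Ext.comp_neg,
        ← Ext.mk₀_comp_mk₀, ← Ext.comp_assoc_of_third_deg_zero, hv, hη]
      simp
    obtain ⟨x, hx⟩ := Ext.contravariant_sequence_exact₁ hS Y
      (Ext.mk₀ (𝟙 Y - v' ≫ g)) (n₁ := 1) rfl h1
    obtain ⟨x, rfl⟩ := Ext.homEquiv₀.symm.surjective x
    have hx' : ModuleCat.ofHom i ≫ x = 𝟙 Y - v' ≫ g := by
      apply (Ext.mk₀_bijective _ _).1
      rw [← Ext.mk₀_comp_mk₀]
      exact hx
    refine ⟨P, hP, hP', v'.hom.prod i, g.hom.coprod (x : P ⟶ Y).hom, LinearMap.ext fun y => ?_⟩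
    have h2 : (x : P ⟶ Y).hom (i y) = y - g.hom (v'.hom y) :=
      LinearMap.congr_fun (congrArg ModuleCat.Hom.hom hx') y
    show g.hom (v'.hom y) + (x : P ⟶ Y).hom (i y) = y
    rw [h2, add_sub_cancel]
  | succ d ih =>
    intro X K h V g hs
    obtain ⟨P, Y, i, p, hP, hP', h3, h4, h5, h6⟩ := h
    have hS : (stepSC i p h5).ShortExact := stepSC_exact h3 h4 h5
    haveI : CategoryTheory.Projective P := (IsProjective.iff_projective P).mp hP'
    refine ih h6 g fun x => ?_
    have e : 1 + (d + 1) = d + 1 + 1 := add_comm _ _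
    obtain ⟨z, hz⟩ := hs (hS.extClass.comp (x : Ext Y K (d + 1)) e)
    obtain ⟨z', hz'⟩ := Ext.contravariant_sequence_exact₃ hS V z (Ext.eq_zero_of_projective _) e
    have h1 : hS.extClass.comp
        ((x : Ext Y K (d + 1)) - z'.comp (Ext.mk₀ g) (add_zero _)) e = 0 := by
      rw [sub_eq_add_neg, Ext.comp_add, Ext.comp_neg, ← Ext.comp_assoc_of_third_deg_zero, hz', hz]
      simp
    obtain ⟨w, hw⟩ := Ext.contravariant_sequence_exact₁ hS K _ e h1
    refine ⟨z', ?_⟩
    rw [Ext.eq_zero_of_projective w, Ext.comp_zero, eq_comm, sub_eq_zero] at hw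
    exact hw.symm

end Vale.Agent.P195.IT
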